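import Mathlib

/-!
# First and second variations of matrix powers in an eigenbasis

`Dk A T k` is the first variation of `A ^ k` in the direction `T`; `Qk A T k` collects the products of
two first variations in the Itô rule for `A ^ k`.
-/

namespace Vale.P245.Cube

open Matrix Finset

variable {n : ℕ}

/-- The divided difference of `x ^ k`. -/
def hh : ℕ → ℝ → ℝ → ℝ
  | 0, _, _ => 0
  | k + 1, x, y => hh k x y * y + x ^ k

/-- The second divided difference of `x ^ k`, at `x, x, y`. -/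
def gg : ℕ → ℝ → ℝ → ℝ
  | 0, _, _ => 0
  | k + 1, x, y => gg k x y * x + hh k x y

theorem hh_self (x : ℝ) : ∀ k : ℕ, hh k x x * x = k * x ^ k
  | 0 => by simp [hh]
  | k + 1 => by
    rw [hh, add_mul, hh_self x k, pow_succ]
    push_cast
    ring

theorem hh_bound {x y M : ℝ} (hx : 0 ≤ x) (hy : 0 ≤ y) (hxM : x ≤ M) (hyM : y ≤ M) :
    ∀ k : ℕ, 0 ≤ hh k x y ∧ hh k x y * M ≤ k * M ^ k
  | 0 => by simp [hh]
  | k + 1 => by
    obtain ⟨h0, h⟩ := hh_bound hx hy hxM hyM k
    have hM : 0 ≤ M := hx.trans hxM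
    refine ⟨by rw [hh]; positivity, ?_⟩
    have h1 : hh k x y * y * M ≤ k * M ^ k * M :=
      calc hh k x y * y * M = hh k x y * M * y := by ring
        _ ≤ k * M ^ k * M := mul_le_mul h hyM hy (by positivity)
    have h2 : x ^ k * M ≤ M ^ k * M := mul_le_mul_of_nonneg_right (pow_le_pow_left₀ hx hxM k) hM
    rw [hh, add_mul, pow_succ]
    push_cast
    linarith

theorem gg_bound {x y M : ℝ} (hx : 0 ≤ x) (hy : 0 ≤ y) (hxM : x ≤ M) (hyM : y ≤ M) :
    ∀ k : ℕ, 0 ≤ gg k x y ∧ gg k x y * M ^ 2 ≤ (k : ℝ) ^ 2 * M ^ k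
  | 0 => by simp [gg]
  | k + 1 => by
    obtain ⟨h0, h⟩ := gg_bound hx hy hxM hyM k
    obtain ⟨hh0, hh1⟩ := hh_bound hx hy hxM hyM k
    have hM : 0 ≤ M := hx.trans hxM
    refine ⟨by rw [gg]; positivity, ?_⟩
    have h1 : gg k x y * x * M ^ 2 ≤ (k : ℝ) ^ 2 * M ^ k * M :=
      calc gg k x y * x * M ^ 2 = gg k x y * M ^ 2 * x := by ring
        _ ≤ (k : ℝ) ^ 2 * M ^ k * M := mul_le_mul h hxM hx (by positivity)
    have h2 : hh k x y * M ^ 2 ≤ (k : ℝ) * M ^ k * M :=
      calc hh k x y * M ^ 2 = hh k x y * M * M := by ring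
        _ ≤ (k : ℝ) * M ^ k * M := mul_le_mul_of_nonneg_right hh1 hM
    have h3 : 0 ≤ (k : ℝ) * M ^ k * M + M ^ k * M := by positivity
    rw [gg, add_mul, show M ^ (k + 1) = M ^ k * M from pow_succ M k]
    push_cast
    nlinarith

/-- The first variation of a power. -/
def Dk (A T : Matrix (Fin n) (Fin n) ℝ) : ℕ → Matrix (Fin n) (Fin n) ℝ
  | 0 => 0
  | k + 1 => Dk A T k * A + A ^ k * T

/-- The products of first variations in the Itô rule for a power. -/
def Qk {ι : Type*} [Fintype ι] (A : Matrix (Fin n) (Fin n) ℝ) (T : ι → Matrix (Fin n) (Fin n) ℝ) :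
    ℕ → Matrix (Fin n) (Fin n) ℝ
  | 0 => 0
  | k + 1 => Qk A T k * A + ∑ l, Dk A (T l) k * T l

variable {A : Matrix (Fin n) (Fin n) ℝ} (hA : A.IsHermitian)

/-- A matrix in the eigenbasis of `A`. -/
noncomputable def rot (M : Matrix (Fin n) (Fin n) ℝ) : Matrix (Fin n) (Fin n) ℝ :=
  star (hA.eigenvectorUnitary : Matrix (Fin n) (Fin n) ℝ) * M * hA.eigenvectorUnitary

theorem rot_mul (M N : Matrix (Fin n) (Fin n) ℝ) : rot hA (M * N) = rot hA M * rot hA N := by
  have h : (hA.eigenvectorUnitary : Matrix (Fin n) (Fin n) ℝ)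
      * star (hA.eigenvectorUnitary : Matrix (Fin n) (Fin n) ℝ) = 1 :=
    Unitary.coe_mul_star_self _
  simp only [rot, Matrix.mul_assoc]
  rw [← Matrix.mul_assoc (hA.eigenvectorUnitary : Matrix (Fin n) (Fin n) ℝ) (star _), h,
    Matrix.one_mul]

theorem rot_add (M N : Matrix (Fin n) (Fin n) ℝ) : rot hA (M + N) = rot hA M + rot hA N := by
  simp [rot, Matrix.mul_add, Matrix.add_mul]

theorem rot_sum {ι : Type*} (t : Finset ι) (M : ι → Matrix (Fin n) (Fin n) ℝ) :
    rot hA (∑ l ∈ t, M l) = ∑ l ∈ t, rot hA (M l) := by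
  simp [rot, Matrix.mul_sum, Matrix.sum_mul]

theorem rot_self : rot hA A = Matrix.diagonal hA.eigenvalues := by
  have h := hA.conjStarAlgAut_star_eigenvectorUnitary
  simp only [Unitary.conjStarAlgAut_apply, star_star, Unitary.coe_star] at h
  exact h.trans (by simp)

theorem rot_pow : ∀ k : ℕ, rot hA (A ^ k) = Matrix.diagonal fun i => hA.eigenvalues i ^ k
  | 0 => by simp [rot]
  | k + 1 => by
    rw [pow_succ, rot_mul, rot_pow k, rot_self, Matrix.diagonal_mul_diagonal]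
    simp [pow_succ]

theorem trace_rot (M : Matrix (Fin n) (Fin n) ℝ) : (rot hA M).trace = M.trace := by
  rw [rot, Matrix.trace_mul_cycle, Unitary.mul_star_self_of_mem hA.eigenvectorUnitary.2,
    Matrix.one_mul]

theorem trace_pow (k : ℕ) : (A ^ k).trace = ∑ i, hA.eigenvalues i ^ k := by
  rw [← trace_rot hA, rot_pow, Matrix.trace_diagonal]

theorem rot_apply (M : Matrix (Fin n) (Fin n) ℝ) (i j : Fin n) :
    rot hA M i j = ∑ a, ∑ b, hA.eigenvectorBasis i a * M a b * hA.eigenvectorBasis j b := by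
  simp only [rot, Matrix.mul_apply, Finset.sum_mul, Matrix.star_apply,
    Matrix.IsHermitian.eigenvectorUnitary_apply, star_trivial]
  exact Finset.sum_comm

theorem rot_Dk (T : Matrix (Fin n) (Fin n) ℝ) (i j : Fin n) : ∀ k : ℕ,
    rot hA (Dk A T k) i j = hh k (hA.eigenvalues i) (hA.eigenvalues j) * rot hA T i j
  | 0 => by simp [Dk, hh, rot]
  | k + 1 => by
    rw [Dk, rot_add, rot_mul, rot_mul, rot_self, rot_pow, Matrix.add_apply, Matrix.mul_diagonal,
      Matrix.diagonal_mul, rot_Dk T i j k, hh]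
    ring

theorem rot_Qk {ι : Type*} [Fintype ι] (T : ι → Matrix (Fin n) (Fin n) ℝ) (i : Fin n) : ∀ k : ℕ,
    rot hA (Qk A T k) i i = ∑ l, ∑ j,
      gg k (hA.eigenvalues i) (hA.eigenvalues j) * (rot hA (T l) i j * rot hA (T l) j i)
  | 0 => by simp [Qk, gg, rot]
  | k + 1 => by
    rw [Qk, rot_add, rot_mul, rot_self, rot_sum, Matrix.add_apply, Matrix.mul_diagonal,
      rot_Qk T i k, Matrix.sum_apply, Finset.sum_mul, ← Finset.sum_add_distrib]
    refine Finset.sum_congr rfl fun l _ => ?_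
    rw [rot_mul, Matrix.mul_apply, Finset.sum_mul, ← Finset.sum_add_distrib]
    refine Finset.sum_congr rfl fun j _ => ?_
    rw [rot_Dk, gg]
    ring

include hA in
theorem trace_Qk {ι : Type*} [Fintype ι] (T : ι → Matrix (Fin n) (Fin n) ℝ) (k : ℕ) :
    (Qk A T k).trace = ∑ i, ∑ l, ∑ j,
      gg k (hA.eigenvalues i) (hA.eigenvalues j) * (rot hA (T l) i j * rot hA (T l) j i) := by
  rw [← trace_rot hA]
  exact Finset.sum_congr rfl fun i _ => rot_Qk hA T i k

theorem trace_Dk (T : Matrix (Fin n) (Fin n) ℝ) (k : ℕ) :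
    (Dk A T k).trace = ∑ i, hh k (hA.eigenvalues i) (hA.eigenvalues i) * rot hA T i i := by
  rw [← trace_rot hA]
  exact Finset.sum_congr rfl fun i _ => rot_Dk hA T i i k

end Vale.P245.Cube
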