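import Vale.Agent.P245.Cube.Borell
import Vale.Agent.P254.Skew.Facts
import Vale.Agent.P245.Cube.Lich
import Vale.Agent.P245.Cube.Tail.Spec

/-!
# The third moment tensor of a log-concave law against its covariance

`drift`: the quadratic term of `trace (A ^ k)` is at most `12 k² C_P trace (A ^ k)`.
`grad`: the gradient of `trace (A ^ k)` is controlled by the fourth moment.
-/

namespace Vale.P245.Cube

open MeasureTheory Vale.P254.Skew Finset
open scoped RealInnerProductSpace

variable {n : ℕ} {W : E n → ℝ} {a b : ℝ}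

/-- The centred linear form. -/
noncomputable def cy (W : E n → ℝ) (u : E n) : E n → ℝ :=
  fun x => ⟪x, u⟫ - ex W (fun x => ⟪x, u⟫)

/-- The covariance matrix. -/
noncomputable def covM (W : E n → ℝ) : Matrix (Fin n) (Fin n) ℝ :=
  Matrix.of fun i j => ex W (fun x => x i * x j) - ex W (fun x => x i) * ex W (fun x => x j)

/-- The third central moment. -/
noncomputable def th (W : E n → ℝ) (u v w : E n) : ℝ :=
  ex W fun x => cy W u x * cy W v x * cy W w x

/-- A slice of the third moment tensor. -/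
noncomputable def Tn (W : E n → ℝ) (l : Fin n) : Matrix (Fin n) (Fin n) ℝ :=
  Matrix.of fun i j => th W (bv l) (bv i) (bv j)

theorem tame_cy (W : E n → ℝ) (u : E n) : Tame (cy W u) := (tame_inner u).sub (Tame.const _)

theorem th_swap (W : E n → ℝ) (u v w : E n) : th W u v w = th W v u w :=
  ex_congr fun x => by ring

theorem th_swap' (W : E n → ℝ) (u v w : E n) : th W u v w = th W u w v :=
  ex_congr fun x => by ring

theorem ex_cy (h : Pinched W a b) (u : E n) : ex W (cy W u) = 0 := by
  unfold cy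
  rw [h.ex_sub (tame_inner u) (Tame.const _), h.ex_const, sub_self]

theorem inner_eq_sum (x u : E n) : ⟪x, u⟫ = ∑ i, u i * x i := by
  conv_lhs => rw [← sum_smul_bv u]
  rw [inner_sum]
  exact Finset.sum_congr rfl fun i _ => by rw [real_inner_smul_right, inner_bv]

theorem cy_linear (h : Pinched W a b) {ι : Type*} [Fintype ι] (c : ι → ℝ) (u : ι → E n) (x : E n) :
    cy W (∑ i, c i • u i) x = ∑ i, c i * cy W (u i) x := by
  simp only [cy, mul_sub, Finset.sum_sub_distrib, inner_sum, real_inner_smul_right]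
  congr 1
  rw [h.ex_sum _ fun i _ => (tame_inner (u i)).const_mul _]
  exact Finset.sum_congr rfl fun i _ => ex_const_mul _ _

theorem cy_coord (h : Pinched W a b) (u x : E n) : cy W u x = ∑ i, u i * cy W (bv i) x := by
  conv_lhs => rw [← sum_smul_bv u]
  exact cy_linear h _ _ x

theorem ex_cy_cy (h : Pinched W a b) (u v : E n) :
    ex W (fun x => cy W u x * cy W v x) = ∑ i, ∑ j, u i * covM W i j * v j := by
  have hc : ∀ i j, ex W (fun x => cy W (bv i) x * cy W (bv j) x) = covM W i j := fun i j => by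
    simp only [cy, inner_bv, covM, Matrix.of_apply]
    set p := ex W fun x : E n => x i
    set q := ex W fun x : E n => x j
    rw [ex_congr (g := fun x : E n => (x i * x j - q * x i) - (p * x j - p * q)) fun x => by ring,
      h.ex_sub (((tame_coord i).mul (tame_coord j)).sub ((tame_coord i).const_mul _))
        (((tame_coord j).const_mul _).sub (Tame.const _)),
      h.ex_sub ((tame_coord i).mul (tame_coord j)) ((tame_coord i).const_mul _),
      h.ex_sub ((tame_coord j).const_mul _) (Tame.const _), h.ex_const, ex_const_mul, ex_const_mul]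
    simp only [p, q]
    ring
  have ht : ∀ i j, Tame fun x => u i * v j * (cy W (bv i) x * cy W (bv j) x) := fun i j =>
    ((tame_cy W _).mul (tame_cy W _)).const_mul _
  rw [ex_congr (g := fun x => ∑ i, ∑ j, u i * v j * (cy W (bv i) x * cy W (bv j) x)) fun x => by
      rw [cy_coord h u, cy_coord h v, Finset.sum_mul_sum]
      exact Finset.sum_congr rfl fun i _ => Finset.sum_congr rfl fun j _ => by ring,
    h.ex_sum _ fun i _ => Tame.sum _ fun j _ => ht i j]
  refine Finset.sum_congr rfl fun i _ => ?_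
  rw [h.ex_sum _ fun j _ => ht i j]
  refine Finset.sum_congr rfl fun j _ => ?_
  rw [ex_const_mul, hc]
  ring

theorem th_linear (h : Pinched W a b) {ι : Type*} [Fintype ι] (c : ι → ℝ) (u : ι → E n) (v w : E n) :
    th W (∑ i, c i • u i) v w = ∑ i, c i * th W (u i) v w := by
  have ht : ∀ i, Tame fun x => c i * (cy W (u i) x * cy W v x * cy W w x) := fun i =>
    (((tame_cy W _).mul (tame_cy W _)).mul (tame_cy W _)).const_mul _
  unfold th
  rw [ex_congr (g := fun x => ∑ i, c i * (cy W (u i) x * cy W v x * cy W w x)) fun x => by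
      rw [cy_linear h c u, Finset.sum_mul, Finset.sum_mul]
      exact Finset.sum_congr rfl fun i _ => by ring,
    h.ex_sum _ fun i _ => ht i]
  exact Finset.sum_congr rfl fun i _ => ex_const_mul _ _

theorem th_coord (h : Pinched W a b) (u v w : E n) :
    th W u v w = ∑ p, u p * th W (bv p) v w := by
  conv_lhs => rw [← sum_smul_bv u]
  exact th_linear h _ _ v w

theorem isHermitian_covM (W : E n → ℝ) : (covM W).IsHermitian :=
  Matrix.IsHermitian.ext fun i j => by simp [covM, mul_comm]

theorem abbrev_rot (h : Pinched W a b) (l i j : Fin n) :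
    rot (isHermitian_covM W) (Tn W l) i j = th W (bv l) ((isHermitian_covM W).eigenvectorBasis i)
      ((isHermitian_covM W).eigenvectorBasis j) := by
  rw [rot_apply, th_swap, th_coord h]
  refine Finset.sum_congr rfl fun p _ => ?_
  rw [th_swap, th_swap', th_swap, th_coord h, Finset.mul_sum]
  refine Finset.sum_congr rfl fun q _ => ?_
  rw [th_swap W (bv q) (bv l) (bv p), th_swap' W (bv l) (bv q) (bv p)]
  simp only [Tn, Matrix.of_apply]
  ring

theorem ex_eig (h : Pinched W a b) (i j : Fin n) :
    ex W (fun x => cy W ((isHermitian_covM W).eigenvectorBasis i) x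
      * cy W ((isHermitian_covM W).eigenvectorBasis j) x)
      = if i = j then (isHermitian_covM W).eigenvalues i else 0 := by
  rw [ex_cy_cy h, ← rot_apply, rot_self]
  exact Matrix.diagonal_apply ..

theorem eig_pos (h : Pinched W a b) (hb : 0 < b) (i : Fin n) :
    1 / b ≤ (isHermitian_covM W).eigenvalues i := by
  set u := (isHermitian_covM W).eigenvectorBasis i
  have h1 := h.le_var hb u
  have h2 := ex_eig h i i
  rw [if_pos rfl] at h2
  have h3 : ex W (fun x => cy W u x * cy W u x) = ex W (fun x => ⟪x, u⟫ ^ 2) - ex W (fun x => ⟪x, u⟫) ^ 2 := by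
    have := h.ex_cov (tame_inner u) (tame_inner u)
    simpa [cy, sq] using this
  rw [show ‖u‖ = 1 from (isHermitian_covM W).eigenvectorBasis.orthonormal.1 i, one_pow] at h1
  linarith

theorem eig_le (h : Pinched W a b) (i : Fin n) :
    (isHermitian_covM W).eigenvalues i ≤ 1 / a := by
  set u := (isHermitian_covM W).eigenvectorBasis i
  have h1 := h.var_le u
  have h2 := ex_eig h i i
  rw [if_pos rfl] at h2
  have h3 : ex W (fun x => cy W u x * cy W u x) = ex W (fun x => ⟪x, u⟫ ^ 2) - ex W (fun x => ⟪x, u⟫) ^ 2 := by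
    have := h.ex_cov (tame_inner u) (tame_inner u)
    simpa [cy, sq] using this
  rw [show ‖u‖ = 1 from (isHermitian_covM W).eigenvectorBasis.orthonormal.1 i, one_pow] at h1
  linarith

theorem ex_cy_sq_le (h : Pinched W a b) {κ : ℝ}
    (hκ : ∀ i, (isHermitian_covM W).eigenvalues i ≤ κ) (v : E n) :
    ex W (fun x => cy W v x ^ 2) ≤ κ * ‖v‖ ^ 2 := by
  set u := (isHermitian_covM W).eigenvectorBasis
  have ht : ∀ i j, Tame fun x => ⟪u i, v⟫ * ⟪u j, v⟫ * (cy W (u i) x * cy W (u j) x) := fun i j =>
    ((tame_cy W _).mul (tame_cy W _)).const_mul _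
  rw [ex_congr (g := fun x => ∑ i, ∑ j, ⟪u i, v⟫ * ⟪u j, v⟫ * (cy W (u i) x * cy W (u j) x))
      fun x => by
        conv_lhs => rw [← u.sum_repr' v]
        rw [cy_linear h, sq, Finset.sum_mul_sum]
        exact Finset.sum_congr rfl fun i _ => Finset.sum_congr rfl fun j _ => by ring,
    h.ex_sum _ fun i _ => Tame.sum _ fun j _ => ht i j]
  simp only [h.ex_sum _ fun j _ => ht _ j, ex_const_mul, u, ex_eig h, mul_ite, mul_zero,
    Finset.sum_ite_eq, Finset.mem_univ, if_true]
  rw [show ‖v‖ ^ 2 = ∑ i, ‖⟪u i, v⟫‖ ^ 2 from (u.sum_sq_norm_inner_right v).symm,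
    Finset.mul_sum]
  refine Finset.sum_le_sum fun i _ => ?_
  rw [← sq, Real.norm_eq_abs, sq_abs, mul_comm]
  exact mul_le_mul_of_nonneg_right (hκ i) (sq_nonneg _)

theorem sum_bv_sq (v : E n) : ∑ i, v i ^ 2 = ‖v‖ ^ 2 := by
  rw [EuclideanSpace.norm_sq_eq]
  simp

theorem sum_th_sq (h : Pinched W a b) (v w : E n) :
    ∑ l, th W (bv l) v w ^ 2 = ∑ c, th W ((isHermitian_covM W).eigenvectorBasis c) v w ^ 2 := by
  set u := (isHermitian_covM W).eigenvectorBasis
  set g : E n := ∑ l, th W (bv l) v w • bv l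
  have hg : ∀ x : E n, ⟪x, g⟫ = th W x v w := fun x => by
    rw [th_coord h x, inner_sum]
    exact Finset.sum_congr rfl fun l _ => by rw [real_inner_smul_right, inner_bv, mul_comm]
  have hl : ∀ l, g l = th W (bv l) v w := fun l => by rw [← hg, bv_inner]
  have e := u.sum_sq_norm_inner_right g
  simp only [Real.norm_eq_abs, sq_abs, hg] at e
  rw [e, ← sum_bv_sq]
  simp only [hl]

/-- Cauchy-Schwarz and the Poincaré inequality for a quadratic form. -/
theorem sum_th_div_le (h : Pinched W a b) (hb : 0 < b) {κ : ℝ}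
    (hκ : ∀ i, (isHermitian_covM W).eigenvalues i ≤ κ) (i : Fin n) :
    ∑ j, ∑ l, th W ((isHermitian_covM W).eigenvectorBasis i)
        ((isHermitian_covM W).eigenvectorBasis j) ((isHermitian_covM W).eigenvectorBasis l) ^ 2
        / ((isHermitian_covM W).eigenvalues j + (isHermitian_covM W).eigenvalues l)
      ≤ 2 * Real.sqrt (κ / a) * (isHermitian_covM W).eigenvalues i := by
  set u := (isHermitian_covM W).eigenvectorBasis with hu
  set lam := (isHermitian_covM W).eigenvalues with hlam
  have hlam0 : ∀ j, 0 < lam j := fun j => (one_div_pos.2 hb).trans_le (eig_pos h hb j)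
  have hκ0 : 0 ≤ κ := (hlam0 i).le.trans (hκ i)
  set M : Fin n → Fin n → ℝ := fun j l => th W (u i) (u j) (u l) / (lam j + lam l) with hMdef
  have hM : ∀ j l, M j l = M l j := fun j l => by
    simp only [hMdef, th_swap' W (u i) (u j) (u l), add_comm (lam j)]
  set S := ∑ j, ∑ l, th W (u i) (u j) (u l) ^ 2 / (lam j + lam l) with hS
  set y : Fin n → E n → ℝ := fun j => cy W (u j) with hy
  set f : E n → ℝ := fun x => ∑ j, ∑ l, M j l * (y j x * y l x) with hf
  have ty : ∀ j, Tame (y j) := fun j => tame_cy W _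
  have tf : Tame f := Tame.sum _ fun j _ => Tame.sum _ fun l _ => ((ty j).mul (ty l)).const_mul _
  -- the derivative of `f`
  set G : E n → E n := fun x => ∑ j, (2 * ∑ l, M j l * y l x) • u j with hG
  have hyd : ∀ j x, HasFDerivAt (y j) ((innerSL ℝ).flip (u j)) x := fun j x => by
    have := (((innerSL ℝ).flip (u j)).hasFDerivAt (x := x)).sub_const (ex W fun x => ⟪x, u j⟫)
    exact this
  have hfd : ∀ x w, fderiv ℝ f x w = ⟪w, G x⟫ := fun x w => by
    have hd : HasFDerivAt f (∑ j, ∑ l, M j l • (y j x • (innerSL ℝ).flip (u l)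
        + y l x • (innerSL ℝ).flip (u j))) x :=
      HasFDerivAt.fun_sum fun j _ => HasFDerivAt.fun_sum fun l _ =>
        ((hyd j x).mul (hyd l x)).const_mul (M j l)
    rw [hd.fderiv]
    simp only [_root_.sum_apply, _root_.smul_apply,
      _root_.add_apply, ContinuousLinearMap.flip_apply, hG, inner_sum,
      real_inner_smul_right, smul_eq_mul, Finset.sum_mul, Finset.mul_sum]
    show ∑ j, ∑ l, M j l * (y j x * ⟪w, u l⟫ + y l x * ⟪w, u j⟫) = _
    simp only [mul_add, Finset.sum_add_distrib]
    rw [Finset.sum_comm, ← Finset.sum_add_distrib]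
    refine Finset.sum_congr rfl fun j _ => ?_
    rw [← Finset.sum_add_distrib]
    exact Finset.sum_congr rfl fun l _ => by rw [hM l j]; ring
  have hnorm : ∀ x, ∑ p, fderiv ℝ f x (bv p) ^ 2 = ∑ j, 4 * (∑ l, M j l * y l x) ^ 2 := fun x => by
    simp only [hfd, bv_inner, sum_bv_sq, hG]
    rw [← u.sum_sq_norm_inner_right]
    refine Finset.sum_congr rfl fun j _ => ?_
    rw [u.orthonormal.inner_right_fintype, Real.norm_eq_abs, sq_abs]
    ring
  -- its expectation
  have hExp : ex W (fun x => ∑ p, fderiv ℝ f x (bv p) ^ 2) = 2 * S := by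
    rw [ex_congr hnorm, h.ex_sum _ fun j _ =>
      ((Tame.sum _ fun l _ => (ty l).const_mul (M j l)).pow 2).const_mul 4]
    have e : ∀ j, ex W (fun x => 4 * (∑ l, M j l * y l x) ^ 2) = 4 * ∑ l, M j l ^ 2 * lam l := by
      intro j
      have ht : ∀ l m, Tame fun x => M j l * M j m * (y l x * y m x) := fun l m =>
        ((ty l).mul (ty m)).const_mul _
      rw [ex_const_mul, ex_congr (g := fun x => ∑ l, ∑ m, M j l * M j m * (y l x * y m x))
        fun x => by
          rw [sq, Finset.sum_mul_sum]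
          exact Finset.sum_congr rfl fun l _ => Finset.sum_congr rfl fun m _ => by ring,
        h.ex_sum _ fun l _ => Tame.sum _ fun m _ => ht l m,
        Finset.sum_congr rfl fun l _ => h.ex_sum _ fun m _ => ht l m]
      simp only [ex_const_mul, hy, hu, ex_eig h, mul_ite, mul_zero,
        Finset.sum_ite_eq, Finset.mem_univ, if_true, hlam]
      congr 1
      refine Finset.sum_congr rfl fun l _ => ?_
      ring
    simp only [e, ← Finset.mul_sum]
    have e2 : ∑ j, ∑ l, M j l ^ 2 * lam j = ∑ j, ∑ l, M j l ^ 2 * lam l := by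
      rw [Finset.sum_comm]
      simp only [fun j l => hM j l]
    have e3 : S = (∑ j, ∑ l, M j l ^ 2 * lam j) + ∑ j, ∑ l, M j l ^ 2 * lam l := by
      simp only [hS, ← Finset.sum_add_distrib]
      refine Finset.sum_congr rfl fun j _ => Finset.sum_congr rfl fun l _ => ?_
      have := hlam0 j
      have := hlam0 l
      simp only [hMdef]
      field_simp
    rw [e3, e2]
    ring
  -- the pairing with the linear form
  have hpair : ex W (fun x => y i x * (f x - ex W f)) = S := by
    rw [ex_congr (g := fun x => y i x * f x - ex W f * y i x) fun x => by ring,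
      h.ex_sub ((ty i).mul tf) ((ty i).const_mul _), ex_const_mul,
      show ex W (y i) = 0 from ex_cy h _, mul_zero, sub_zero]
    have ht : ∀ j l, Tame fun x => M j l * (y i x * y j x * y l x) := fun j l =>
      (((ty i).mul (ty j)).mul (ty l)).const_mul _
    rw [ex_congr (g := fun x => ∑ j, ∑ l, M j l * (y i x * y j x * y l x)) fun x => by
        simp only [hf, Finset.mul_sum]
        exact Finset.sum_congr rfl fun j _ => Finset.sum_congr rfl fun l _ => by ring,
      h.ex_sum _ fun j _ => Tame.sum _ fun l _ => ht j l]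
    simp only [h.ex_sum _ fun l _ => ht _ l, ex_const_mul]
    exact Finset.sum_congr rfl fun j _ => Finset.sum_congr rfl fun l _ => by
      simp only [hMdef, hy]
      rw [show ex W (fun x => cy W (u i) x * cy W (u j) x * cy W (u l) x)
        = th W (u i) (u j) (u l) from rfl]
      ring
  have hS0 : 0 ≤ S := Finset.sum_nonneg fun j _ => Finset.sum_nonneg fun l _ => by
    have := hlam0 j; have := hlam0 l; positivity
  have hsmooth : ContDiff ℝ 2 f :=
    ContDiff.sum fun j _ => ContDiff.sum fun l _ => contDiff_const.mul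
      ((((innerSL ℝ).flip (u j)).contDiff.sub contDiff_const).mul
        (((innerSL ℝ).flip (u l)).contDiff.sub contDiff_const))
  have tfd : ∀ p, Tame fun x => fderiv ℝ f x (bv p) := fun p => by
    simp only [hfd, hG, inner_sum, real_inner_smul_right]
    exact Tame.sum _ fun j _ => by
      simp only [mul_comm _ ⟪bv p, u j⟫]
      exact ((Tame.sum _ fun l _ => (ty l).const_mul _).const_mul _).const_mul _
  have hvar : ∀ v : E n, ex W (fun x => ⟪x, v⟫ ^ 2) - ex W (fun x => ⟪x, v⟫) ^ 2 ≤ κ * ‖v‖ ^ 2 :=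
    fun v => by
      have := ex_cy_sq_le h hκ v
      have e := h.ex_cov (tame_inner v) (tame_inner v)
      simp only [cy, sq] at this e ⊢
      linarith
  have hP := lich h hb hκ0 hvar hsmooth tf tfd
  rw [hExp] at hP
  have hvarf : ex W (fun x => (f x - ex W f) ^ 2) = ex W (fun x => f x ^ 2) - ex W f ^ 2 := by
    simpa only [← sq] using h.ex_cov tf tf
  have hCS := h.sq_ex_mul_le (ty i) (tf.sub (Tame.const (ex W f)))
  rw [hpair, hvarf] at hCS
  have hyi : ex W (fun x => y i x ^ 2) = lam i := by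
    simpa [sq, hy, hu, hlam] using ex_eig h i i
  rw [hyi] at hCS
  have h2 : S * S ≤ lam i * (Real.sqrt (κ / a) * (2 * S)) :=
    (sq S ▸ hCS).trans (mul_le_mul_of_nonneg_left hP (hlam0 i).le)
  rcases hS0.eq_or_lt with h0 | h0
  · rw [← h0]
    have := hlam0 i
    positivity
  · exact le_of_mul_le_mul_right (h2.trans_eq (by ring)) h0

/-- The quadratic part of the drift of the trace potential. -/
theorem drift (h : Pinched W a b) (hb : 0 < b) {κ : ℝ}
    (hκ : ∀ i, (isHermitian_covM W).eigenvalues i ≤ κ) (k : ℕ) :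
    (Qk (covM W) (Tn W) k).trace
      ≤ 12 * (k : ℝ) ^ 2 * Real.sqrt (κ / a) * (covM W ^ k).trace := by
  set u := (isHermitian_covM W).eigenvectorBasis with hu
  set lam := (isHermitian_covM W).eigenvalues with hlam
  have hlam0 : ∀ j, 0 < lam j := fun j => (one_div_pos.2 hb).trans_le (eig_pos h hb j)
  set t : Fin n → Fin n → Fin n → ℝ := fun i j l => th W (u i) (u j) (u l) with ht
  -- a monomial with its first index maximal
  set F : Fin n → Fin n → Fin n → ℝ := fun i j l =>
    if lam j ≤ lam i ∧ lam l ≤ lam i then lam i ^ k / lam i ^ 2 * t i j l ^ 2 else 0 with hF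
  have hF0 : ∀ i j l, 0 ≤ F i j l := fun i j l => by
    have := hlam0 i
    simp only [hF]
    split_ifs <;> positivity
  have key : ∀ i c j, gg k (lam i) (lam j) * t c i j ^ 2
      ≤ (k : ℝ) ^ 2 * (F i j c + F j i c + F c i j) := by
    intro i c j
    have hperm1 : t i j c = t c i j := by
      simp only [ht]; rw [th_swap' W (u i), th_swap W (u i)]
    have hperm2 : t j i c = t c i j := by
      simp only [ht]; rw [th_swap W (u j), th_swap' W (u i), th_swap W (u i)]
    have main : ∀ M : ℝ, 0 < M → lam i ≤ M → lam j ≤ M →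
        gg k (lam i) (lam j) * t c i j ^ 2 ≤ (k : ℝ) ^ 2 * (M ^ k / M ^ 2 * t c i j ^ 2) := by
      intro M hM hi hj
      obtain ⟨-, h2⟩ := gg_bound (hlam0 i).le (hlam0 j).le hi hj k
      rw [← mul_assoc, ← mul_div_assoc]
      exact mul_le_mul_of_nonneg_right ((le_div_iff₀ (by positivity)).2 h2) (sq_nonneg _)
    have hk : (0 : ℝ) ≤ (k : ℝ) ^ 2 := sq_nonneg _
    rcases le_total (lam j) (lam i) with hji | hij
    · rcases le_total (lam c) (lam i) with hci | hic
      · refine (main _ (hlam0 i) le_rfl hji).trans (mul_le_mul_of_nonneg_left ?_ hk)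
        have : F i j c = lam i ^ k / lam i ^ 2 * t c i j ^ 2 := by simp [hF, hji, hci, hperm1]
        linarith [hF0 j i c, hF0 c i j]
      · refine (main _ (hlam0 c) hic (hji.trans hic)).trans (mul_le_mul_of_nonneg_left ?_ hk)
        have : F c i j = lam c ^ k / lam c ^ 2 * t c i j ^ 2 := by simp [hF, hic, hji.trans hic]
        linarith [hF0 j i c, hF0 i j c]
    · rcases le_total (lam c) (lam j) with hcj | hjc
      · refine (main _ (hlam0 j) hij le_rfl).trans (mul_le_mul_of_nonneg_left ?_ hk)
        have : F j i c = lam j ^ k / lam j ^ 2 * t c i j ^ 2 := by simp [hF, hij, hcj, hperm2]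
        linarith [hF0 i j c, hF0 c i j]
      · refine (main _ (hlam0 c) (hij.trans hjc) hjc).trans (mul_le_mul_of_nonneg_left ?_ hk)
        have : F c i j = lam c ^ k / lam c ^ 2 * t c i j ^ 2 := by simp [hF, hjc, hij.trans hjc]
        linarith [hF0 j i c, hF0 i j c]
  have hQ : (Qk (covM W) (Tn W) k).trace
      = ∑ i, ∑ c, ∑ j, gg k (lam i) (lam j) * t c i j ^ 2 := by
    rw [trace_Qk (isHermitian_covM W)]
    refine Finset.sum_congr rfl fun i _ => ?_
    rw [Finset.sum_comm, Finset.sum_comm (γ := Fin n) (f := fun c j => gg k (lam i) (lam j) * t c i j ^ 2)]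
    refine Finset.sum_congr rfl fun j _ => ?_
    simp only [abbrev_rot h, ← Finset.mul_sum, th_swap' W _ (u j) (u i), ← hu, ← sq,
      sum_th_sq h, ← hlam, ht]
  have hbound : ∑ i, ∑ j, ∑ l, F i j l ≤ 4 * Real.sqrt (κ / a) * (covM W ^ k).trace := by
    rw [trace_pow (isHermitian_covM W), Finset.mul_sum]
    refine Finset.sum_le_sum fun i _ => ?_
    have hi := hlam0 i
    have h1 : ∀ j l, F i j l
        ≤ lam i ^ k / lam i ^ 2 * (2 * lam i) * (t i j l ^ 2 / (lam j + lam l)) := fun j l => by
      have hj := hlam0 j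
      have hl := hlam0 l
      simp only [hF]
      split_ifs with hmax
      · rw [mul_assoc, ← mul_div_assoc]
        refine mul_le_mul_of_nonneg_left ?_ (by positivity)
        rw [le_div_iff₀ (by positivity)]
        nlinarith [sq_nonneg (t i j l)]
      · positivity
    refine (Finset.sum_le_sum fun j _ => Finset.sum_le_sum fun l _ => h1 j l).trans ?_
    simp only [← Finset.mul_sum]
    refine (mul_le_mul_of_nonneg_left (sum_th_div_le h hb hκ i) (by positivity)).trans_eq ?_
    rw [← hlam]
    field_simp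
    ring
  rw [hQ]
  refine (Finset.sum_le_sum fun i _ => Finset.sum_le_sum fun c _ => Finset.sum_le_sum fun j _ =>
    key i c j).trans ?_
  simp only [← Finset.mul_sum, Finset.sum_add_distrib]
  have e1 : ∑ i, ∑ c, ∑ j, F i j c = ∑ i, ∑ j, ∑ l, F i j l :=
    Finset.sum_congr rfl fun i _ => Finset.sum_comm
  have e2 : ∑ i, ∑ c, ∑ j, F j i c = ∑ i, ∑ j, ∑ l, F i j l := by
    rw [Finset.sum_congr rfl fun i _ => Finset.sum_comm (f := fun c j => F j i c), Finset.sum_comm]
  have e3 : ∑ i, ∑ c, ∑ j, F c i j = ∑ i, ∑ j, ∑ l, F i j l := Finset.sum_comm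
  rw [e1, e2, e3]
  nlinarith [mul_le_mul_of_nonneg_left hbound (sq_nonneg (k : ℝ))]

/-- The gradient of the trace potential. -/
theorem grad (h : Pinched W a b) (hb : 0 < b) {κ C : ℝ} (hC : 0 ≤ C)
    (h4 : ∀ v : E n, ex W (fun x => cy W v x ^ 4) ≤ C * ex W (fun x => cy W v x ^ 2) ^ 2)
    (hκ : ∀ i, (isHermitian_covM W).eigenvalues i ≤ κ) (k : ℕ) :
    ∑ l, (Dk (covM W) (Tn W l) k).trace ^ 2
      ≤ (k : ℝ) ^ 2 * C * κ * (covM W ^ k).trace ^ 2 := by
  set u := (isHermitian_covM W).eigenvectorBasis with hu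
  set lam := (isHermitian_covM W).eigenvalues with hlam
  rcases isEmpty_or_nonempty (Fin n) with hn | ⟨⟨i₀⟩⟩
  · simp [Matrix.trace]
  have hlam0 : ∀ j, 0 < lam j := fun j => (one_div_pos.2 hb).trans_le (eig_pos h hb j)
  have hκ0 : 0 ≤ κ := (hlam0 i₀).le.trans (hκ i₀)
  set d : Fin n → ℝ := fun l => (Dk (covM W) (Tn W l) k).trace with hd
  set v : E n := ∑ l, d l • bv l with hv
  have hvl : ∀ l, v l = d l := fun l => by
    rw [← bv_inner v l, hv, inner_sum]
    simp only [real_inner_smul_right, bv_inner]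
    simp [bv]
  set K := (k : ℝ) * Real.sqrt (C * κ) * (covM W ^ k).trace with hK
  have h1 : ‖v‖ ^ 2 = ∑ i, hh k (lam i) (lam i) * th W v (u i) (u i) := by
    rw [← sum_bv_sq]
    simp only [th_coord h v, hvl, Finset.mul_sum]
    rw [Finset.sum_comm]
    refine Finset.sum_congr rfl fun l _ => ?_
    rw [sq]
    nth_rw 2 [hd]
    simp only [trace_Dk (isHermitian_covM W), Finset.mul_sum, abbrev_rot h, ← hu, ← hlam]
    exact Finset.sum_congr rfl fun i _ => by ring
  have h2 : ∀ i, th W v (u i) (u i) ≤ Real.sqrt (C * κ) * lam i * ‖v‖ := by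
    intro i
    have hcs := h.sq_ex_mul_le (tame_cy W v) ((tame_cy W (u i)).pow 2)
    have e : ex W (fun x => cy W v x * cy W (u i) x ^ 2) = th W v (u i) (u i) :=
      ex_congr fun x => by ring
    have hi : ex W (fun x => cy W (u i) x ^ 2) = lam i := by
      simpa [sq, hu, hlam] using ex_eig h i i
    have hq : ex W (fun x => (cy W (u i) x ^ 2) ^ 2) ≤ C * lam i ^ 2 := by
      rw [← hi, ex_congr (g := fun x => cy W (u i) x ^ 4) fun x => by ring]
      exact h4 (u i)
    rw [e] at hcs
    have h3 : th W v (u i) (u i) ^ 2 ≤ (Real.sqrt (C * κ) * lam i * ‖v‖) ^ 2 := by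
      rw [mul_pow, mul_pow, Real.sq_sqrt (mul_nonneg hC hκ0)]
      refine hcs.trans ((mul_le_mul (ex_cy_sq_le h hκ v) hq (h.ex_nonneg fun x => sq_nonneg _)
        (by positivity)).trans_eq (by ring))
    have := hlam0 i
    exact (abs_le.1 (abs_le_of_sq_le_sq h3 (by positivity))).2
  have h3 : ‖v‖ ^ 2 ≤ K * ‖v‖ := by
    rw [h1]
    refine (Finset.sum_le_sum fun i _ => mul_le_mul_of_nonneg_left (h2 i)
      (hh_bound (hlam0 i).le (hlam0 i).le le_rfl le_rfl k).1).trans_eq ?_
    rw [hK, trace_pow (isHermitian_covM W), Finset.mul_sum, Finset.sum_mul]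
    refine Finset.sum_congr rfl fun i _ => ?_
    rw [show hh k (lam i) (lam i) * (Real.sqrt (C * κ) * lam i * ‖v‖)
      = Real.sqrt (C * κ) * (hh k (lam i) (lam i) * lam i) * ‖v‖ by ring, hh_self, ← hlam]
    ring
  have h4' : ‖v‖ ^ 2 ≤ K ^ 2 := by
    rcases (norm_nonneg v).eq_or_lt with h0 | h0
    · rw [← h0]; simp only [ne_eq, OfNat.ofNat_ne_zero, not_false_eq_true, zero_pow]; positivity
    · exact pow_le_pow_left₀ h0.le (le_of_mul_le_mul_right (by rw [← sq]; exact h3) h0) 2
  rw [← sum_bv_sq] at h4'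
  simp only [hvl, hK, mul_pow, Real.sq_sqrt (mul_nonneg hC hκ0)] at h4'
  refine h4'.trans_eq ?_
  ring

end Vale.P245.Cube
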