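import Vale.Agent.P245.Cube.CalcRules
import Vale.Agent.P245.Cube.Tail.Third

/-!
# The generator on powers of the posterior covariance

`gen Am = -Am²` and the Itô rule for matrix powers.
-/

namespace Vale.P245.Cube

open MeasureTheory Vale.P254.Skew Finset

variable {n : ℕ} {V : E n → ℝ} {ε Λ : ℝ}

/-- A function with its gradient and its image under the generator. -/
def CG (V : E n → ℝ) (F : ℝ → E n → ℝ) (F1 : Fin n → ℝ → E n → ℝ) (G : ℝ → E n → ℝ) : Prop :=
  ∃ F2 Ft, Calc F F1 F2 Ft ∧ ∀ s, 0 ≤ s → ∀ θ, gen V F1 F2 Ft s θ = G s θ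

theorem Nice.congr {F F' : ℝ → E n → ℝ} (hF : Nice F) (h : ∀ s, 0 ≤ s → ∀ θ, F s θ = F' s θ) :
    Nice F' := by
  refine ⟨hF.cont.congr fun p hp => (h p.1 hp.1 p.2).symm, fun T => ?_⟩
  obtain ⟨C, N, hC⟩ := hF.poly T
  exact ⟨C, N, fun s hs θ => h s hs.1 θ ▸ hC s hs θ⟩

variable {F F' : ℝ → E n → ℝ} {F1 F1' : Fin n → ℝ → E n → ℝ} {G G' : ℝ → E n → ℝ}

theorem CG.congr (hF : CG V F F1 G) (h0 : ∀ s θ, F s θ = F' s θ)
    (h1 : ∀ l s, 0 ≤ s → ∀ θ, F1 l s θ = F1' l s θ) (hG : ∀ s, 0 ≤ s → ∀ θ, G s θ = G' s θ) :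
    CG V F' F1' G' := by
  obtain ⟨F2, Ft, hc, hg⟩ := hF
  obtain rfl : F = F' := funext fun s => funext (h0 s)
  refine ⟨F2, Ft, ⟨hc.nice, fun l => (hc.nice1 l).congr (h1 l), hc.nice2, hc.niceT, hc.smooth,
    fun s hs θ l => (hc.d1 s hs θ l).trans (h1 l s hs θ), hc.d2, fun s hs γ γ' hγ => ?_⟩,
    fun s hs θ => ?_⟩
  · have := hc.dt s hs γ γ' hγ
    simp only [fun l => h1 l s hs.le (γ s)] at this
    exact this
  · rw [← hG s hs θ, ← hg s hs θ]
    simp only [gen, h1 _ s hs θ]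

theorem CG.const (V : E n → ℝ) (r : ℝ) :
    CG V (fun _ _ => r) (fun _ _ _ => 0) (fun _ _ => 0) :=
  ⟨_, _, Calc.const r, fun s _ θ => by simp [gen]⟩

theorem CG.add (hF : CG V F F1 G) (hF' : CG V F' F1' G') :
    CG V (fun s θ => F s θ + F' s θ) (fun l s θ => F1 l s θ + F1' l s θ)
      (fun s θ => G s θ + G' s θ) := by
  obtain ⟨F2, Ft, hc, hg⟩ := hF
  obtain ⟨F2', Ft', hc', hg'⟩ := hF'
  refine ⟨_, _, hc.add hc', fun s hs θ => ?_⟩
  beta_reduce
  rw [← hg s hs θ, ← hg' s hs θ]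
  simp only [gen, mul_add, Finset.sum_add_distrib, add_div]
  ring

theorem CG.const_mul (r : ℝ) (hF : CG V F F1 G) :
    CG V (fun s θ => r * F s θ) (fun l s θ => r * F1 l s θ) (fun s θ => r * G s θ) := by
  obtain ⟨F2, Ft, hc, hg⟩ := hF
  refine ⟨_, _, hc.const_mul r, fun s hs θ => ?_⟩
  beta_reduce
  rw [← hg s hs θ]
  simp only [gen, mul_left_comm _ r, ← Finset.mul_sum]
  ring

theorem CG.mul (hF : CG V F F1 G) (hF' : CG V F' F1' G') :
    CG V (fun s θ => F s θ * F' s θ) (fun l s θ => F1 l s θ * F' s θ + F s θ * F1' l s θ)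
      (fun s θ => G s θ * F' s θ + F s θ * G' s θ + ∑ l, F1 l s θ * F1' l s θ) := by
  obtain ⟨F2, Ft, hc, hg⟩ := hF
  obtain ⟨F2', Ft', hc', hg'⟩ := hF'
  refine ⟨_, _, hc.mul hc', fun s hs θ => ?_⟩
  beta_reduce
  rw [← hg s hs θ, ← hg' s hs θ]
  simp only [gen, mul_add, Finset.sum_add_distrib, add_mul, Finset.sum_mul, Finset.mul_sum,
    ← mul_assoc, Finset.sum_div, add_div]
  have e1 : ∀ l, mC V s θ l * F s θ * F1' l s θ = F s θ * mC V s θ l * F1' l s θ := fun l => by ring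
  have e2 : ∀ l, 2 * F1 l s θ * F1' l s θ / 2 = F1 l s θ * F1' l s θ := fun l => by ring
  have e3 : ∀ l, F2 l s θ / 2 * F' s θ = F2 l s θ * F' s θ / 2 := fun l => by ring
  have e4 : ∀ l, F s θ * (F2' l s θ / 2) = F s θ * F2' l s θ / 2 := fun l => by ring
  simp only [e1, e2, e3, e4]
  ring

theorem CG.sum {ι : Type} (t : Finset ι) {F : ι → ℝ → E n → ℝ} {F1 : ι → Fin n → ℝ → E n → ℝ}
    {G : ι → ℝ → E n → ℝ} (hF : ∀ i ∈ t, CG V (F i) (F1 i) (G i)) :
    CG V (fun s θ => ∑ i ∈ t, F i s θ) (fun l s θ => ∑ i ∈ t, F1 i l s θ)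
      (fun s θ => ∑ i ∈ t, G i s θ) := by
  classical
  induction t using Finset.induction_on with
  | empty => simpa using CG.const V 0
  | insert i t hi ih =>
    simp only [Finset.sum_insert hi]
    exact (hF i (Finset.mem_insert_self i t)).add
      (ih fun j hj => hF j (Finset.mem_insert_of_mem hj))

theorem CG.comp (hF : CG V F F1 G) {φ φ' φ'' : ℝ → ℝ} {U : Set ℝ} (hU : IsOpen U)
    (hFU : ∀ s, 0 ≤ s → ∀ θ, F s θ ∈ U) (hφ : ContDiffOn ℝ 2 φ U)
    (h1 : ∀ r ∈ U, HasDerivAt φ (φ' r) r) (h2 : ∀ r ∈ U, HasDerivAt φ' (φ'' r) r)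
    (n0 : Nice fun s θ => φ (F s θ)) (n1 : Nice fun s θ => φ' (F s θ))
    (n2 : Nice fun s θ => φ'' (F s θ)) :
    CG V (fun s θ => φ (F s θ)) (fun l s θ => φ' (F s θ) * F1 l s θ)
      (fun s θ => φ' (F s θ) * G s θ + φ'' (F s θ) * (∑ l, F1 l s θ ^ 2) / 2) := by
  obtain ⟨F2, Ft, hc, hg⟩ := hF
  refine ⟨_, _, hc.comp hU hFU hφ h1 h2 n0 n1 n2, fun s hs θ => ?_⟩
  beta_reduce
  rw [← hg s hs θ]
  simp only [gen, Finset.sum_add_distrib, mul_left_comm _ (φ' (F s θ)), ← Finset.mul_sum]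
  ring

/-- The posterior potential. -/
noncomputable def post (V : E n → ℝ) (s : ℝ) (θ : E n) : E n → ℝ := tilt (Ws V s) θ

theorem Reg.pinP (h : Reg V ε Λ) {s : ℝ} (hs : 0 ≤ s) (θ : E n) :
    Pinched (post V s θ) (ε + s) (Λ + s) :=
  (h.pin_Ws hs).tilt θ

theorem Am_eq (V : E n → ℝ) (s : ℝ) (θ : E n) : Am V s θ = covM (post V s θ) := rfl

theorem th_coord_eq {W : E n → ℝ} {a b : ℝ} (h : Pinched W a b) (l i j : Fin n) :
    th W (bv l) (bv i) (bv j) =
      ex W (fun x => x l * (x i * x j)) - ex W (fun x => x l) * ex W (fun x => x i * x j)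
      - (ex W (fun x => x i) * (ex W (fun x => x l * x j) - ex W (fun x => x l) * ex W (fun x => x j))
        + (ex W (fun x => x l * x i) - ex W (fun x => x l) * ex W (fun x => x i))
          * ex W (fun x => x j)) := by
  set ml := ex W fun x : E n => x l with hl
  set mi := ex W fun x : E n => x i with hi
  set mj := ex W fun x : E n => x j with hj
  have c := fun p => tame_coord (k := n) p
  have e : ∀ x : E n, cy W (bv l) x * cy W (bv i) x * cy W (bv j) x
      = ((x l * (x i * x j) - mi * (x l * x j)) - (mj * (x l * x i) - mi * mj * x l))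
        - ((ml * (x i * x j) - ml * mi * x j) - (ml * mj * x i - ml * mi * mj)) := fun x => by
    simp only [cy, inner_bv, ← hl, ← hi, ← hj]
    ring
  have t1 := ((c l).mul ((c i).mul (c j))).sub (((c l).mul (c j)).const_mul mi)
  have t2 := (((c l).mul (c i)).const_mul mj).sub ((c l).const_mul (mi * mj))
  have t3 := (((c i).mul (c j)).const_mul ml).sub ((c j).const_mul (ml * mi))
  have t4 := ((c i).const_mul (ml * mj)).sub (Tame.const (k := n) (ml * mi * mj))
  unfold th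
  rw [ex_congr e, h.ex_sub (t1.sub t2) (t3.sub t4), h.ex_sub t1 t2, h.ex_sub t3 t4,
    h.ex_sub ((c l).mul ((c i).mul (c j))) (((c l).mul (c j)).const_mul _),
    h.ex_sub (((c l).mul (c i)).const_mul _) ((c l).const_mul _),
    h.ex_sub (((c i).mul (c j)).const_mul _) ((c j).const_mul _),
    h.ex_sub ((c i).const_mul _) (Tame.const _), h.ex_const]
  simp only [ex_const_mul, ← hl, ← hi, ← hj]
  ring

theorem cg_Am (h : Reg V ε Λ) (i j : Fin n) :
    CG V (fun s θ => Am V s θ i j) (fun l s θ => Tn (post V s θ) l i j)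
      (fun s θ => -(Am V s θ * Am V s θ) i j) := by
  have hcg : ∀ {f : E n → ℝ}, Tame f → CG V (fun s θ => cE V s θ f) (cE1 V f) (fun _ _ => 0) :=
    fun hf => ⟨_, _, calc_cE h hf, fun s hs θ => gen_cE h hf hs θ⟩
  refine ((hcg ((tame_coord i).mul (tame_coord j))).add
    (((hcg (tame_coord i)).mul (hcg (tame_coord j))).const_mul (-1))).congr
    (fun s θ => ?_) (fun l s hs θ => ?_) (fun s hs θ => ?_)
  · simp only [Am, covF, Matrix.of_apply]
    ring
  · simp only [Tn, Matrix.of_apply]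
    rw [th_coord_eq (h.pinP hs θ)]
    simp only [cE1, covF, cE, post]
    ring
  · have hsymm : ∀ l, Am V s θ i l = Am V s θ l i := fun l => by
      simp only [Am, covF, Matrix.of_apply, mul_comm]
    simp only [Matrix.mul_apply, hsymm]
    simp [Am, cE1, covF]

theorem cg_pow (h : Reg V ε Λ) : ∀ (k : ℕ) (i j : Fin n),
    CG V (fun s θ => (Am V s θ ^ k) i j) (fun l s θ => Dk (Am V s θ) (Tn (post V s θ) l) k i j)
      (fun s θ => (-((k : ℝ) • Am V s θ ^ (k + 1)) + Qk (Am V s θ) (Tn (post V s θ)) k) i j)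
  | 0, i, j => by
    refine (CG.const V ((1 : Matrix (Fin n) (Fin n) ℝ) i j)).congr (fun s θ => ?_)
      (fun l s hs θ => ?_) (fun s hs θ => ?_)
    · rw [pow_zero]
    · simp [Dk]
    · simp [Qk]
  | k + 1, i, j => by
    refine (CG.sum Finset.univ fun m _ => (cg_pow h k i m).mul (cg_Am h m j)).congr
      (fun s θ => ?_) (fun l s hs θ => ?_) (fun s hs θ => ?_)
    · rw [pow_succ, Matrix.mul_apply]
    · simp only [Dk, Matrix.add_apply, Matrix.mul_apply, Finset.sum_add_distrib]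
    · set A := Am V s θ
      set T := Tn (post V s θ)
      have e : -(((k + 1 : ℕ) : ℝ) • A ^ (k + 1 + 1)) + Qk A T (k + 1)
          = (-((k : ℝ) • A ^ (k + 1)) + Qk A T k) * A + A ^ k * -(A * A)
            + ∑ l, Dk A (T l) k * T l := by
        rw [Qk, add_mul, neg_mul, smul_mul_assoc, ← pow_succ, mul_neg, ← mul_assoc, ← pow_succ,
          ← pow_succ]
        push_cast
        module
      rw [e]
      simp only [Matrix.add_apply, Matrix.mul_apply, Matrix.neg_apply, Matrix.sum_apply,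
        Finset.sum_add_distrib]
      congr 1
      exact Finset.sum_comm

/-- The gradient and the drift of the trace of a power. -/
theorem cg_trace (h : Reg V ε Λ) (k : ℕ) :
    CG V (fun s θ => (Am V s θ ^ k).trace)
      (fun l s θ => (Dk (Am V s θ) (Tn (post V s θ) l) k).trace)
      (fun s θ => -((k : ℝ) * (Am V s θ ^ (k + 1)).trace)
        + (Qk (Am V s θ) (Tn (post V s θ)) k).trace) := by
  refine (CG.sum Finset.univ fun i _ => cg_pow h k i i).congr (fun s θ => rfl) (fun l s hs θ => rfl)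
    (fun s hs θ => ?_)
  simp [Matrix.trace, Finset.sum_add_distrib, Finset.mul_sum]

end Vale.P245.Cube
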